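import Mathlib
set_option autoImplicit false
open MeasureTheory
open scoped ENNReal

namespace Crest.Agent.S0359Aux

lemma lp_norm_rpow {α : Type} [Fintype α] [MeasurableSpace α] [DiscreteMeasurableSpace α]
    (p : ℝ≥0∞) [Fact (1 ≤ p)] (hp0 : 0 < p.toReal) (hptop : p ≠ ⊤) (f : α → ℝ)
    (hf : MemLp f p (Measure.count : Measure α)) :
    ‖hf.toLp f‖ ^ p.toReal = ∑ a, |f a| ^ p.toReal := by
  have hp_ne : p ≠ 0 := by
    intro h; simp [h] at hp0
  rw [Lp.norm_toLp, eLpNorm_eq_lintegral_rpow_enorm_toReal hp_ne hptop, lintegral_count, tsum_fintype]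
  rw [← ENNReal.toReal_rpow, ← Real.rpow_mul ENNReal.toReal_nonneg, one_div_mul_cancel hp0.ne',
    Real.rpow_one]
  rw [ENNReal.toReal_sum]
  · refine Finset.sum_congr rfl fun a _ => ?_
    rw [← ENNReal.toReal_rpow, toReal_enorm, Real.norm_eq_abs]
  · intro a _
    exact ENNReal.rpow_ne_top_of_nonneg hp0.le enorm_ne_top

lemma pi_norm_rpow {d : ℕ} (p : ℝ≥0∞) [Fact (1 ≤ p)] (hp0 : 0 < p.toReal)
    (x : PiLp p (fun _ : Fin d => ℝ)) :
    ‖x‖ ^ p.toReal = ∑ i, |x i| ^ p.toReal := by
  rw [PiLp.norm_eq_sum hp0, ← Real.rpow_mul, one_div_mul_cancel hp0.ne', Real.rpow_one]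
  · rfl
  · exact Finset.sum_nonneg fun i _ => Real.rpow_nonneg (norm_nonneg _) _

/-- strict midpoint convexity of `x ^ q`, `q > 1`. -/
lemma mid_convex {q : ℝ} (hq : 1 < q) {a b : ℝ} (ha : 0 ≤ a) (hb : 0 ≤ b) :
    ((a + b) / 2) ^ q ≤ (a ^ q + b ^ q) / 2 ∧ (a ≠ b → ((a + b) / 2) ^ q < (a ^ q + b ^ q) / 2) := by
  have hs := strictConvexOn_rpow hq
  have key : a ≠ b → ((a + b) / 2) ^ q < (a ^ q + b ^ q) / 2 := by
    intro hab
    have := hs.2 (Set.mem_Ici.2 ha) (Set.mem_Ici.2 hb) hab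
      (show (0:ℝ) < 1/2 by norm_num) (show (0:ℝ) < 1/2 by norm_num) (by norm_num)
    simp only [smul_eq_mul] at this
    have e1 : (1:ℝ)/2 * a + 1/2 * b = (a + b) / 2 := by ring
    rw [e1] at this
    linarith
  refine ⟨?_, key⟩
  by_cases hab : a = b
  · subst hab
    have : (a + a) / 2 = a := by ring
    rw [this]; linarith
  · exact (key hab).le

/-- strict midpoint concavity of `x ^ q`, `0 < q < 1`. -/
lemma mid_concave {q : ℝ} (hq0 : 0 < q) (hq : q < 1) {a b : ℝ} (ha : 0 ≤ a) (hb : 0 ≤ b) :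
    (a ^ q + b ^ q) / 2 ≤ ((a + b) / 2) ^ q ∧ (a ≠ b → (a ^ q + b ^ q) / 2 < ((a + b) / 2) ^ q) := by
  have hs := Real.strictConcaveOn_rpow hq0 hq
  have key : a ≠ b → (a ^ q + b ^ q) / 2 < ((a + b) / 2) ^ q := by
    intro hab
    have := hs.2 (Set.mem_Ici.2 ha) (Set.mem_Ici.2 hb) hab
      (show (0:ℝ) < 1/2 by norm_num) (show (0:ℝ) < 1/2 by norm_num) (by norm_num)
    simp only [smul_eq_mul] at this
    have e1 : (1:ℝ)/2 * a + 1/2 * b = (a + b) / 2 := by ring
    rw [e1] at this
    linarith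
  refine ⟨?_, key⟩
  by_cases hab : a = b
  · subst hab
    have : (a + a) / 2 = a := by ring
    rw [this]; linarith
  · exact (key hab).le

lemma abs_rpow_eq (x P : ℝ) : |x| ^ P = (x ^ 2) ^ (P / 2) := by
  rw [← sq_abs, ← Real.rpow_natCast, ← Real.rpow_mul (abs_nonneg x)]
  congr 1
  push_cast
  ring

/-- the Clarkson defect -/
noncomputable def D (P s t : ℝ) : ℝ := |s + t| ^ P + |s - t| ^ P - 2 * (|s| ^ P + |t| ^ P)

lemma D_eq_zero {P : ℝ} (hP : P ≠ 0) {s t : ℝ} (h : s * t = 0) : D P s t = 0 := by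
  unfold D
  rcases mul_eq_zero.1 h with rfl | rfl
  · simp [Real.zero_rpow hP]; ring
  · simp [Real.zero_rpow hP]; ring

lemma D_pos {P : ℝ} (hP : 2 < P) (s t : ℝ) : 0 ≤ D P s t ∧ (s * t ≠ 0 → 0 < D P s t) := by
  have hq : 1 < P / 2 := by linarith
  have hA : 0 ≤ (s + t) ^ 2 := sq_nonneg _
  have hB : 0 ≤ (s - t) ^ 2 := sq_nonneg _
  have hm := mid_convex hq hA hB
  have e : ((s + t) ^ 2 + (s - t) ^ 2) / 2 = s ^ 2 + t ^ 2 := by ring
  rw [e] at hm
  have hsup := Real.add_rpow_le_rpow_add (sq_nonneg s) (sq_nonneg t) hq.le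
  unfold D
  rw [abs_rpow_eq (s + t), abs_rpow_eq (s - t), abs_rpow_eq s, abs_rpow_eq t]
  refine ⟨by linarith [hm.1], fun hst => ?_⟩
  have hne : (s + t) ^ 2 ≠ (s - t) ^ 2 := by
    intro h
    apply hst
    nlinarith
  linarith [hm.2 hne]

lemma D_neg {P : ℝ} (hP0 : 0 < P) (hP : P < 2) (s t : ℝ) :
    D P s t ≤ 0 ∧ (s * t ≠ 0 → D P s t < 0) := by
  have hq0 : 0 < P / 2 := by linarith
  have hq : P / 2 < 1 := by linarith
  have hA : 0 ≤ (s + t) ^ 2 := sq_nonneg _
  have hB : 0 ≤ (s - t) ^ 2 := sq_nonneg _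
  have hm := mid_concave hq0 hq hA hB
  have e : ((s + t) ^ 2 + (s - t) ^ 2) / 2 = s ^ 2 + t ^ 2 := by ring
  rw [e] at hm
  have hsub := Real.rpow_add_le_add_rpow (sq_nonneg s) (sq_nonneg t) hq0.le hq.le
  unfold D
  rw [abs_rpow_eq (s + t), abs_rpow_eq (s - t), abs_rpow_eq s, abs_rpow_eq t]
  refine ⟨by linarith [hm.1], fun hst => ?_⟩
  have hne : (s + t) ^ 2 ≠ (s - t) ^ 2 := by
    intro h
    apply hst
    nlinarith
  linarith [hm.2 hne]

/-- midpoint rigidity, scalar version -/
lemma mid_scalar {P : ℝ} (hP : 1 < P) (s t : ℝ) :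
    |s - t| ^ P ≤ 2 ^ (P - 1) * (|s| ^ P + |t| ^ P) ∧
      (|s - t| ^ P = 2 ^ (P - 1) * (|s| ^ P + |t| ^ P) → t = -s) := by
  have hP0 : 0 < P := by linarith
  have hm := mid_convex hP (abs_nonneg s) (abs_nonneg t)
  have h1 : |s - t| ≤ |s| + |t| := abs_sub s t
  have h2 : |s - t| ^ P ≤ (|s| + |t|) ^ P := Real.rpow_le_rpow (abs_nonneg _) h1 hP0.le
  have h3 : (|s| + |t|) ^ P = 2 ^ P * ((|s| + |t|) / 2) ^ P := by
    rw [← Real.mul_rpow (by norm_num) (by positivity)]
    congr 1; ring
  have h4 : (2:ℝ) ^ P = 2 * 2 ^ (P - 1) := by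
    rw [Real.rpow_sub_one (by norm_num)]; ring
  have hpos : (0:ℝ) < 2 ^ (P - 1) := Real.rpow_pos_of_pos (by norm_num) _
  have h5 : (|s| + |t|) ^ P ≤ 2 ^ (P - 1) * (|s| ^ P + |t| ^ P) := by
    rw [h3, h4]
    have := mul_le_mul_of_nonneg_left hm.1 hpos.le
    nlinarith
  refine ⟨h2.trans h5, fun heq => ?_⟩
  have hab : |s| = |t| := by
    by_contra hne
    have h6 : (|s| + |t|) ^ P < 2 ^ (P - 1) * (|s| ^ P + |t| ^ P) := by
      rw [h3, h4]
      have := mul_lt_mul_of_pos_left (hm.2 hne) hpos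
      nlinarith
    linarith
  have h7 : |s - t| ^ P = (|s| + |t|) ^ P := le_antisymm h2 (by rw [heq]; exact h5)
  have h8 : |s - t| = |s| + |t| := by
    have := (Real.rpow_left_inj (abs_nonneg _) (by positivity) hP0.ne').1 h7
    exact this
  rcases abs_eq_abs.1 hab with h | h
  · subst h
    simp at h8
    have : |s| = 0 := by linarith [abs_nonneg s]
    have hs : s = 0 := abs_eq_zero.1 this
    simp [hs]
  · rw [h]; ring


/-- signed row / column indicators on the `k × k` grid -/
noncomputable def pt (k : ℕ) (t : Bool × Bool × Fin k) (z : Fin k × Fin k) : ℝ :=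
  (if t.1 then 1 else -1) * (if (if t.2.1 then z.1 else z.2) = t.2.2 then 1 else 0)

/-- the `4k+1` special points and the fillers -/
noncomputable def G (k m : ℕ) : Option (Bool × Bool × Fin k) ⊕ Fin m → Fin k × Fin k → ℝ
  | Sum.inl none => fun _ => 0
  | Sum.inl (some t) => pt k t
  | Sum.inr j => fun _ => (j : ℝ) + 2

lemma pt_abs_le (k : ℕ) (t : Bool × Bool × Fin k) (z : Fin k × Fin k) : |pt k t z| ≤ 1 := by
  unfold pt
  split_ifs <;> norm_num

lemma pt_neg (k : ℕ) (e r : Bool) (a : Fin k) (z : Fin k × Fin k) :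
    pt k (!e, r, a) z = - pt k (e, r, a) z := by
  unfold pt
  cases e <;> simp <;> split_ifs <;> simp

lemma exists_ne_fin {k : ℕ} (hk : 2 ≤ k) (a : Fin k) : ∃ c : Fin k, c ≠ a := by
  by_cases h : a = ⟨0, by omega⟩
  · exact ⟨⟨1, by omega⟩, by rw [h]; simp [Fin.ext_iff]⟩
  · exact ⟨⟨0, by omega⟩, fun h' => h h'.symm⟩

lemma pt_inj {k : ℕ} (hk : 2 ≤ k) : Function.Injective (pt k) := by
  rintro ⟨e, r, a⟩ ⟨e', r', a'⟩ h
  have key : ∀ z : Fin k × Fin k,
      (if e then (1:ℝ) else -1) * (if (if r then z.1 else z.2) = a then 1 else 0)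
        = (if e' then (1:ℝ) else -1) * (if (if r' then z.1 else z.2) = a' then 1 else 0) :=
    fun z => congrFun h z
  obtain ⟨c, hc⟩ := exists_ne_fin hk a'
  have hsame : ∀ (u v : ℝ), (u = 1 ∨ u = -1) → (v = 1 ∨ v = -1) →
      u * 1 = v * (if a = a' then 1 else 0) → a = a' ∧ u = v := by
    intro u v hu hv huv
    by_cases haa : a = a'
    · simp [haa] at huv
      exact ⟨haa, huv⟩
    · simp [haa] at huv
      rcases hu with rfl | rfl <;> norm_num at huv
  have he : ∀ b : Bool, ((if b then (1:ℝ) else -1) = 1 ∨ (if b then (1:ℝ) else -1) = -1) := by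
    intro b; cases b <;> simp
  have hee : (if e then (1:ℝ) else -1) = (if e' then (1:ℝ) else -1) → e = e' := by
    cases e <;> cases e' <;> norm_num
  cases r <;> cases r'
  · have := key (a, a)
    simp only [Bool.false_eq_true, if_false, if_true] at this
    obtain ⟨h1, h2⟩ := hsame _ _ (he e) (he e') this
    rw [h1, hee h2]
  · have := key (c, a)
    simp only [Bool.false_eq_true, if_false, if_true, hc, mul_zero, mul_one] at this
    rcases he e with h1 | h1 <;> rw [h1] at this <;> norm_num at this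
  · have := key (a, c)
    simp only [Bool.false_eq_true, if_false, if_true, hc, mul_zero, mul_one] at this
    rcases he e with h1 | h1 <;> rw [h1] at this <;> norm_num at this
  · have := key (a, a)
    simp only [if_true] at this
    obtain ⟨h1, h2⟩ := hsame _ _ (he e) (he e') this
    rw [h1, hee h2]

lemma pt_ne_zero {k : ℕ} (t : Bool × Bool × Fin k) : pt k t (t.2.2, t.2.2) ≠ 0 := by
  obtain ⟨e, r, a⟩ := t
  unfold pt
  cases e <;> cases r <;> simp

lemma G_inj {k m : ℕ} (hk : 2 ≤ k) : Function.Injective (G k m) := by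
  have z0 : Fin k × Fin k := (⟨0, by omega⟩, ⟨0, by omega⟩)
  intro w w' h
  rcases w with (_ | t) | j <;> rcases w' with (_ | t') | j'
  · rfl
  · exact absurd (congrFun h (t'.2.2, t'.2.2)).symm (pt_ne_zero t')
  · have := congrFun h z0
    simp only [G] at this
    have hj : (0:ℝ) ≤ (j' : ℝ) := Nat.cast_nonneg _
    linarith
  · exact absurd (congrFun h (t.2.2, t.2.2)) (pt_ne_zero t)
  · have : pt k t = pt k t' := h
    rw [pt_inj hk this]
  · have := congrFun h z0
    simp only [G] at this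
    have hj : (0:ℝ) ≤ (j' : ℝ) := Nat.cast_nonneg _
    have := (abs_le.1 (pt_abs_le k t z0)).2
    linarith
  · have := congrFun h z0
    simp only [G] at this
    have hj : (0:ℝ) ≤ (j : ℝ) := Nat.cast_nonneg _
    linarith
  · have := congrFun h z0
    simp only [G] at this
    have hj : (0:ℝ) ≤ (j : ℝ) := Nat.cast_nonneg _
    have := (abs_le.1 (pt_abs_le k t' z0)).2
    linarith
  · have := congrFun h z0
    simp only [G] at this
    have h2 : ((j : ℕ) : ℝ) = ((j' : ℕ) : ℝ) := by linarith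
    have h3 : (j : ℕ) = (j' : ℕ) := by exact_mod_cast h2
    rw [Fin.ext h3]


lemma pt_disj {k : ℕ} (r : Bool) {a a' : Fin k} (h : a ≠ a') (z : Fin k × Fin k) :
    pt k (true, r, a) z * pt k (true, r, a') z = 0 := by
  unfold pt
  by_cases h1 : (if r then z.1 else z.2) = a
  · have h2 : ¬ (if r then z.1 else z.2) = a' := fun h2 => h (h1.symm.trans h2)
    simp [h2]
  · simp [h1]

lemma pt_nonneg {k : ℕ} (r : Bool) (a : Fin k) (z : Fin k × Fin k) : 0 ≤ pt k (true, r, a) z := by
  unfold pt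
  simp only [if_true, one_mul]
  split_ifs <;> norm_num

/-- the combinatorial core, stated for real sums only -/
theorem core (P : ℝ) (hP1 : 1 < P) (hP2 : P ≠ 2)
    (k m d : ℕ)
    (Y : Option (Bool × Bool × Fin k) ⊕ Fin m → Fin d → ℝ) (c : ℝ) (hc : 0 < c)
    (hY0 : ∀ i, Y (Sum.inl none) i = 0)
    (E : ∀ w w', ∑ i, |Y w i - Y w' i| ^ P = c * ∑ z, |G k m w z - G k m w' z| ^ P) :
    k ^ 2 ≤ d := by
  have hP0 : 0 < P := by linarith
  have E0 : ∀ w, ∑ i, |Y w i| ^ P = c * ∑ z, |G k m w z| ^ P := by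
    intro w
    have := E w (Sum.inl none)
    simpa [hY0, G] using this
  -- Step 1 : antipodes
  have S1 : ∀ (e r : Bool) (a : Fin k) (i : Fin d),
      Y (Sum.inl (some (!e, r, a))) i = - Y (Sum.inl (some (e, r, a))) i := by
    intro e r a i
    have g1 : ∀ z, G k m (Sum.inl (some (!e, r, a))) z = - G k m (Sum.inl (some (e, r, a))) z :=
      fun z => pt_neg k e r a z
    have h2P : (2:ℝ) ^ P = 2 * 2 ^ (P - 1) := by
      rw [Real.rpow_sub_one (by norm_num)]; ring
    have hsum : ∑ i, (2 ^ (P - 1) * (|Y (Sum.inl (some (e, r, a))) i| ^ P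
        + |Y (Sum.inl (some (!e, r, a))) i| ^ P)
        - |Y (Sum.inl (some (e, r, a))) i - Y (Sum.inl (some (!e, r, a))) i| ^ P) = 0 := by
      rw [Finset.sum_sub_distrib, ← Finset.mul_sum, Finset.sum_add_distrib, E0, E0, E]
      have h3 : ∀ z, |G k m (Sum.inl (some (e, r, a))) z - G k m (Sum.inl (some (!e, r, a))) z| ^ P
          = 2 ^ P * |G k m (Sum.inl (some (e, r, a))) z| ^ P := by
        intro z
        rw [g1, sub_neg_eq_add, ← two_mul, abs_mul, Real.mul_rpow (abs_nonneg _) (abs_nonneg _)]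
        norm_num
      have h4 : ∀ z, |G k m (Sum.inl (some (!e, r, a))) z| ^ P
          = |G k m (Sum.inl (some (e, r, a))) z| ^ P := by
        intro z; rw [g1, abs_neg]
      simp only [h3, h4, ← Finset.mul_sum]
      rw [h2P]; ring
    have hnn : ∀ i ∈ (Finset.univ : Finset (Fin d)), 0 ≤ (2 ^ (P - 1) *
        (|Y (Sum.inl (some (e, r, a))) i| ^ P + |Y (Sum.inl (some (!e, r, a))) i| ^ P)
        - |Y (Sum.inl (some (e, r, a))) i - Y (Sum.inl (some (!e, r, a))) i| ^ P) :=
      fun i _ => sub_nonneg.2 (mid_scalar hP1 _ _).1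
    have := (Finset.sum_eq_zero_iff_of_nonneg hnn).1 hsum i (Finset.mem_univ i)
    exact (mid_scalar hP1 _ _).2 (by linarith)
  -- sums of `+`
  have Eplus : ∀ (w : Option (Bool × Bool × Fin k) ⊕ Fin m) (r : Bool) (a : Fin k),
      ∑ i, |Y w i + Y (Sum.inl (some (true, r, a))) i| ^ P
        = c * ∑ z, |G k m w z + G k m (Sum.inl (some (true, r, a))) z| ^ P := by
    intro w r a
    have h := E w (Sum.inl (some (false, r, a)))
    have h1 : ∀ i, Y (Sum.inl (some (false, r, a))) i = - Y (Sum.inl (some (true, r, a))) i :=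
      fun i => S1 true r a i
    have h2 : ∀ z, G k m (Sum.inl (some (false, r, a))) z = - G k m (Sum.inl (some (true, r, a))) z :=
      fun z => pt_neg k true r a z
    simpa only [h1, h2, sub_neg_eq_add] using h
  -- Step 2 : disjoint supports
  have S2 : ∀ (r : Bool) (a a' : Fin k), a ≠ a' → ∀ i,
      Y (Sum.inl (some (true, r, a))) i * Y (Sum.inl (some (true, r, a'))) i = 0 := by
    intro r a a' haa i
    have hsum : ∑ i, D P (Y (Sum.inl (some (true, r, a))) i) (Y (Sum.inl (some (true, r, a'))) i)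
        = 0 := by
      unfold D
      rw [Finset.sum_sub_distrib, Finset.sum_add_distrib, ← Finset.mul_sum, Finset.sum_add_distrib,
        Eplus, E, E0, E0]
      have hz : ∑ z, D P (G k m (Sum.inl (some (true, r, a))) z)
          (G k m (Sum.inl (some (true, r, a'))) z) = 0 :=
        Finset.sum_eq_zero fun z _ => D_eq_zero hP0.ne' (pt_disj r haa z)
      unfold D at hz
      rw [Finset.sum_sub_distrib, Finset.sum_add_distrib, ← Finset.mul_sum,
        Finset.sum_add_distrib] at hz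
      have : ∀ A B C F : ℝ, A + B - 2 * (C + F) = 0 →
          c * A + c * B - 2 * (c * C + c * F) = 0 := by
        intro A B C F h
        have : c * A + c * B - 2 * (c * C + c * F) = c * (A + B - 2 * (C + F)) := by ring
        rw [this, h, mul_zero]
      exact this _ _ _ _ hz
    by_contra hne
    rcases lt_or_gt_of_ne hP2 with hlt | hgt
    · have hnp : ∀ i ∈ (Finset.univ : Finset (Fin d)),
          D P (Y (Sum.inl (some (true, r, a))) i) (Y (Sum.inl (some (true, r, a'))) i) ≤ 0 :=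
        fun i _ => (D_neg hP0 hlt _ _).1
      have := (Finset.sum_eq_zero_iff_of_nonpos hnp).1 hsum i (Finset.mem_univ i)
      exact absurd this ((D_neg hP0 hlt _ _).2 hne).ne
    · have hnn : ∀ i ∈ (Finset.univ : Finset (Fin d)),
          0 ≤ D P (Y (Sum.inl (some (true, r, a))) i) (Y (Sum.inl (some (true, r, a'))) i) :=
        fun i _ => (D_pos hgt _ _).1
      have := (Finset.sum_eq_zero_iff_of_nonneg hnn).1 hsum i (Finset.mem_univ i)
      exact absurd this ((D_pos hgt _ _).2 hne).ne'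
  -- Step 3 : rows meet columns
  have S3 : ∀ a b : Fin k, ∃ i, Y (Sum.inl (some (true, true, a))) i ≠ 0 ∧
      Y (Sum.inl (some (true, false, b))) i ≠ 0 := by
    intro a b
    by_contra hcon0
    have hcon : ∀ i, Y (Sum.inl (some (true, true, a))) i ≠ 0 →
        Y (Sum.inl (some (true, false, b))) i = 0 :=
      fun i h0 => by_contra fun h1 => hcon0 ⟨i, h0, h1⟩
    have habs : ∀ i, |Y (Sum.inl (some (true, true, a))) i + Y (Sum.inl (some (true, false, b))) i|
        = |Y (Sum.inl (some (true, true, a))) i - Y (Sum.inl (some (true, false, b))) i| := by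
      intro i
      by_cases h0 : Y (Sum.inl (some (true, true, a))) i = 0
      · rw [h0, zero_add, zero_sub, abs_neg]
      · rw [hcon i h0, add_zero, sub_zero]
    have e1 := Eplus (Sum.inl (some (true, true, a))) false b
    have e2 := E (Sum.inl (some (true, true, a))) (Sum.inl (some (true, false, b)))
    simp only [habs] at e1
    rw [e1] at e2
    have e3 := mul_left_cancel₀ hc.ne' e2
    have hlt : ∑ z, |G k m (Sum.inl (some (true, true, a))) z
          - G k m (Sum.inl (some (true, false, b))) z| ^ P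
        < ∑ z, |G k m (Sum.inl (some (true, true, a))) z
          + G k m (Sum.inl (some (true, false, b))) z| ^ P := by
      apply Finset.sum_lt_sum
      · intro z _
        apply Real.rpow_le_rpow (abs_nonneg _) _ hP0.le
        have hg : 0 ≤ G k m (Sum.inl (some (true, true, a))) z := pt_nonneg true a z
        have hh : 0 ≤ G k m (Sum.inl (some (true, false, b))) z := pt_nonneg false b z
        rw [abs_of_nonneg (add_nonneg hg hh)]
        exact abs_le.2 ⟨by linarith, by linarith⟩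
      · refine ⟨(a, b), Finset.mem_univ _, ?_⟩
        have hg : G k m (Sum.inl (some (true, true, a))) (a, b) = 1 := by simp [G, pt]
        have hh : G k m (Sum.inl (some (true, false, b))) (a, b) = 1 := by simp [G, pt]
        rw [hg, hh, sub_self, abs_zero, Real.zero_rpow hP0.ne']
        positivity
    linarith
  -- Step 4 : counting
  choose f hf using S3
  have inj : Function.Injective (fun ab : Fin k × Fin k => f ab.1 ab.2) := by
    rintro ⟨a, b⟩ ⟨a', b'⟩ h
    simp only at h
    have ha : a = a' := by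
      by_contra hne
      rcases mul_eq_zero.1 (S2 true a a' hne (f a b)) with h1 | h1
      · exact (hf a b).1 h1
      · rw [h] at h1; exact (hf a' b').1 h1
    have hb : b = b' := by
      by_contra hne
      rcases mul_eq_zero.1 (S2 false b b' hne (f a b)) with h1 | h1
      · exact (hf a b).2 h1
      · rw [h] at h1; exact (hf a' b').2 h1
    rw [ha, hb]
  have := Fintype.card_le_of_injective _ inj
  simpa [Fintype.card_prod, sq] using this

end Crest.Agent.S0359Aux
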