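import Mathlib

/-!
`L^p` of the counting measure on a finite type, in coordinates (helper96, for S0359).
-/

set_option autoImplicit false

namespace Crest.Agent.S0359Aux.H96

open MeasureTheory Finset
open scoped ENNReal

variable {α : Type} [Fintype α] [MeasurableSpace α] [MeasurableSingletonClass α]

lemma memLp_count (p : ℝ≥0∞) (f : α → ℝ) : MemLp f p (Measure.count : Measure α) := by
  have hm : AEStronglyMeasurable f (Measure.count : Measure α) :=
    (Measurable.of_discrete (f := f)).aestronglyMeasurable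
  refine MemLp.of_bound hm (∑ a, ‖f a‖) (Filter.Eventually.of_forall fun x => ?_)
  exact Finset.single_le_sum (f := fun a => ‖f a‖) (fun a _ => norm_nonneg _) (Finset.mem_univ x)

/-- the element of `L^p(count)` given by a function. -/
noncomputable def toLpc (p : ℝ≥0∞) (f : α → ℝ) : Lp ℝ p (Measure.count : Measure α) :=
  (memLp_count p f).toLp f

lemma toLpc_sub (p : ℝ≥0∞) (f g : α → ℝ) : toLpc p f - toLpc p g = toLpc p (f - g) :=
  (MemLp.toLp_sub (memLp_count p f) (memLp_count p g)).symm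

lemma norm_toLpc_rpow (p : ℝ≥0∞) (hp0 : p ≠ 0) (hptop : p ≠ ⊤) (f : α → ℝ) :
    ‖toLpc p f‖ ^ p.toReal = ∑ a, |f a| ^ p.toReal := by
  have hq : 0 < p.toReal := ENNReal.toReal_pos hp0 hptop
  unfold toLpc
  rw [Lp.norm_toLp, eLpNorm_eq_lintegral_rpow_enorm_toReal hp0 hptop, lintegral_fintype]
  simp only [Measure.count_singleton, mul_one]
  have h1 : ∀ a, ‖f a‖ₑ ^ p.toReal = ENNReal.ofReal (|f a| ^ p.toReal) := by
    intro a
    rw [Real.enorm_eq_ofReal_abs, ENNReal.ofReal_rpow_of_nonneg (abs_nonneg _) hq.le]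
  simp only [h1]
  rw [← ENNReal.ofReal_sum_of_nonneg (fun a _ => Real.rpow_nonneg (abs_nonneg _) _)]
  have hS : 0 ≤ ∑ a, |f a| ^ p.toReal :=
    Finset.sum_nonneg fun a _ => Real.rpow_nonneg (abs_nonneg _) _
  rw [ENNReal.ofReal_rpow_of_nonneg hS (by positivity), ENNReal.toReal_ofReal (by positivity),
    ← Real.rpow_mul hS, one_div, inv_mul_cancel₀ hq.ne', Real.rpow_one]

lemma toLpc_injective (p : ℝ≥0∞) (hp0 : p ≠ 0) (hptop : p ≠ ⊤) :
    Function.Injective (toLpc p : (α → ℝ) → Lp ℝ p (Measure.count : Measure α)) := by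
  intro f g h
  have hq : 0 < p.toReal := ENNReal.toReal_pos hp0 hptop
  have h0 : toLpc p (f - g) = 0 := by rw [← toLpc_sub, h, sub_self]
  have h1 := norm_toLpc_rpow p hp0 hptop (f - g)
  rw [h0, Lp.norm_zero, Real.zero_rpow hq.ne'] at h1
  have h2 := (Finset.sum_eq_zero_iff_of_nonneg
    (fun a _ => Real.rpow_nonneg (abs_nonneg ((f - g) a)) p.toReal)).1 h1.symm
  funext a
  have h3 := h2 a (Finset.mem_univ a)
  have h4 : |(f - g) a| = 0 := by
    by_contra hne
    have : 0 < |(f - g) a| ^ p.toReal :=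
      Real.rpow_pos_of_pos (lt_of_le_of_ne (abs_nonneg _) (Ne.symm hne)) _
    linarith
  have h5 : (f - g) a = 0 := abs_eq_zero.1 h4
  simpa [sub_eq_zero] using h5

/-- distances in `L^p(count)`. -/
lemma dist_toLpc_rpow (p : ℝ≥0∞) (hp0 : p ≠ 0) (hptop : p ≠ ⊤) (f g : α → ℝ) :
    ‖toLpc p f - toLpc p g‖ ^ p.toReal = ∑ a, |f a - g a| ^ p.toReal := by
  rw [toLpc_sub, norm_toLpc_rpow p hp0 hptop]
  rfl

/-- norms in `PiLp`. -/
lemma norm_piLp_rpow {d : ℕ} (p : ℝ≥0∞) (hp0 : p ≠ 0) (hptop : p ≠ ⊤)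
    (y : PiLp p (fun _ : Fin d => ℝ)) :
    ‖y‖ ^ p.toReal = ∑ i, |y i| ^ p.toReal := by
  have hq : 0 < p.toReal := ENNReal.toReal_pos hp0 hptop
  rw [PiLp.norm_eq_sum hq]
  have hS : 0 ≤ ∑ i, ‖y i‖ ^ p.toReal :=
    Finset.sum_nonneg fun a _ => Real.rpow_nonneg (norm_nonneg _) _
  rw [← Real.rpow_mul hS, one_div, inv_mul_cancel₀ hq.ne', Real.rpow_one]
  rfl

end Crest.Agent.S0359Aux.H96
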