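import Mathlib

/-!
Scalar and finite-sum lemmas for S0359 (helper96): equality case of Clarkson's inequality for
real exponents `p > 1`, `p ≠ 2`, and uniqueness of midpoints (strict convexity of `|t|^p`).
-/

set_option autoImplicit false

namespace Crest.Agent.S0359Aux.H96

open Finset

lemma abs_rpow_eq_sq_rpow (a p : ℝ) : |a| ^ p = (a ^ 2) ^ (p / 2) := by
  rw [← sq_abs, ← Real.rpow_natCast |a| 2, ← Real.rpow_mul (abs_nonneg a)]
  congr 1
  push_cast
  ring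

lemma rpow_eq_mul_rpow_sub_one {a : ℝ} (ha : 0 < a) (r : ℝ) : a ^ r = a * a ^ (r - 1) := by
  rw [Real.rpow_sub_one ha.ne']
  field_simp

/-- strict superadditivity of `x ^ r`, `r > 1`. -/
lemma add_rpow_lt {a b r : ℝ} (ha : 0 < a) (hb : 0 < b) (hr : 1 < r) :
    a ^ r + b ^ r < (a + b) ^ r := by
  have hab : 0 < a + b := by positivity
  have h1 : a ^ (r - 1) < (a + b) ^ (r - 1) :=
    Real.rpow_lt_rpow ha.le (by linarith) (by linarith)
  have h2 : b ^ (r - 1) < (a + b) ^ (r - 1) :=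
    Real.rpow_lt_rpow hb.le (by linarith) (by linarith)
  rw [rpow_eq_mul_rpow_sub_one ha r, rpow_eq_mul_rpow_sub_one hb r,
    rpow_eq_mul_rpow_sub_one hab r]
  nlinarith [mul_lt_mul_of_pos_left h1 ha, mul_lt_mul_of_pos_left h2 hb]

/-- strict subadditivity of `x ^ r`, `r < 1`. -/
lemma rpow_add_lt {a b r : ℝ} (ha : 0 < a) (hb : 0 < b) (hr : r < 1) :
    (a + b) ^ r < a ^ r + b ^ r := by
  have hab : 0 < a + b := by positivity
  have h1 : (a + b) ^ (r - 1) < a ^ (r - 1) :=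
    Real.rpow_lt_rpow_of_neg ha (by linarith) (by linarith)
  have h2 : (a + b) ^ (r - 1) < b ^ (r - 1) :=
    Real.rpow_lt_rpow_of_neg hb (by linarith) (by linarith)
  rw [rpow_eq_mul_rpow_sub_one ha r, rpow_eq_mul_rpow_sub_one hb r,
    rpow_eq_mul_rpow_sub_one hab r]
  nlinarith [mul_lt_mul_of_pos_left h1 ha, mul_lt_mul_of_pos_left h2 hb]

lemma add_rpow_le' {a b r : ℝ} (ha : 0 ≤ a) (hb : 0 ≤ b) (hr : 1 < r) :
    a ^ r + b ^ r ≤ (a + b) ^ r := by
  have hr0 : r ≠ 0 := by linarith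
  rcases ha.eq_or_lt with rfl | ha
  · simp [Real.zero_rpow hr0]
  rcases hb.eq_or_lt with rfl | hb
  · simp [Real.zero_rpow hr0]
  exact (add_rpow_lt ha hb hr).le

lemma rpow_add_le' {a b r : ℝ} (ha : 0 ≤ a) (hb : 0 ≤ b) (hr0 : 0 < r) (hr : r < 1) :
    (a + b) ^ r ≤ a ^ r + b ^ r := by
  rcases ha.eq_or_lt with rfl | ha
  · simp [Real.zero_rpow hr0.ne']
  rcases hb.eq_or_lt with rfl | hb
  · simp [Real.zero_rpow hr0.ne']
  exact (rpow_add_lt ha hb hr).le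

lemma half_rpow_le {X Y r : ℝ} (hX : 0 ≤ X) (hY : 0 ≤ Y) (hr : 1 ≤ r) :
    2 * ((X + Y) / 2) ^ r ≤ X ^ r + Y ^ r := by
  have h := (convexOn_rpow hr).2 (Set.mem_Ici.2 hX) (Set.mem_Ici.2 hY)
    (by norm_num : (0 : ℝ) ≤ 1 / 2) (by norm_num : (0 : ℝ) ≤ 1 / 2) (by norm_num)
  simp only [smul_eq_mul] at h
  have e : 1 / 2 * X + 1 / 2 * Y = (X + Y) / 2 := by ring
  rw [e] at h
  linarith

lemma le_half_rpow {X Y r : ℝ} (hX : 0 ≤ X) (hY : 0 ≤ Y) (hr0 : 0 ≤ r) (hr : r ≤ 1) :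
    X ^ r + Y ^ r ≤ 2 * ((X + Y) / 2) ^ r := by
  have h := (Real.concaveOn_rpow hr0 hr).2 (Set.mem_Ici.2 hX) (Set.mem_Ici.2 hY)
    (by norm_num : (0 : ℝ) ≤ 1 / 2) (by norm_num : (0 : ℝ) ≤ 1 / 2) (by norm_num)
  simp only [smul_eq_mul] at h
  have e : 1 / 2 * X + 1 / 2 * Y = (X + Y) / 2 := by ring
  rw [e] at h
  linarith

/-- Clarkson, `p > 2`. -/
lemma clarkson_ge {p : ℝ} (hp : 2 < p) (s t : ℝ) :
    2 * (|s| ^ p + |t| ^ p) ≤ |s + t| ^ p + |s - t| ^ p := by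
  simp only [abs_rpow_eq_sq_rpow]
  have h1 := half_rpow_le (sq_nonneg (s + t)) (sq_nonneg (s - t)) (r := p / 2) (by linarith)
  have h2 := add_rpow_le' (sq_nonneg s) (sq_nonneg t) (r := p / 2) (by linarith)
  have e : ((s + t) ^ 2 + (s - t) ^ 2) / 2 = s ^ 2 + t ^ 2 := by ring
  rw [e] at h1
  linarith

lemma clarkson_gt {p : ℝ} (hp : 2 < p) {s t : ℝ} (hs : s ≠ 0) (ht : t ≠ 0) :
    2 * (|s| ^ p + |t| ^ p) < |s + t| ^ p + |s - t| ^ p := by
  simp only [abs_rpow_eq_sq_rpow]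
  have h1 := half_rpow_le (sq_nonneg (s + t)) (sq_nonneg (s - t)) (r := p / 2) (by linarith)
  have h2 := add_rpow_lt (pow_pos (abs_pos.2 hs) 2) (pow_pos (abs_pos.2 ht) 2) (r := p / 2)
    (by linarith)
  simp only [sq_abs] at h2
  have e : ((s + t) ^ 2 + (s - t) ^ 2) / 2 = s ^ 2 + t ^ 2 := by ring
  rw [e] at h1
  linarith

/-- Clarkson, `0 < p < 2`. -/
lemma clarkson_le {p : ℝ} (hp0 : 0 < p) (hp : p < 2) (s t : ℝ) :
    |s + t| ^ p + |s - t| ^ p ≤ 2 * (|s| ^ p + |t| ^ p) := by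
  simp only [abs_rpow_eq_sq_rpow]
  have h1 := le_half_rpow (sq_nonneg (s + t)) (sq_nonneg (s - t)) (r := p / 2) (by linarith)
    (by linarith)
  have h2 := rpow_add_le' (sq_nonneg s) (sq_nonneg t) (r := p / 2) (by linarith) (by linarith)
  have e : ((s + t) ^ 2 + (s - t) ^ 2) / 2 = s ^ 2 + t ^ 2 := by ring
  rw [e] at h1
  linarith

lemma clarkson_lt {p : ℝ} (hp0 : 0 < p) (hp : p < 2) {s t : ℝ} (hs : s ≠ 0) (ht : t ≠ 0) :
    |s + t| ^ p + |s - t| ^ p < 2 * (|s| ^ p + |t| ^ p) := by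
  simp only [abs_rpow_eq_sq_rpow]
  have h1 := le_half_rpow (sq_nonneg (s + t)) (sq_nonneg (s - t)) (r := p / 2) (by linarith)
    (by linarith)
  have h2 := rpow_add_lt (pow_pos (abs_pos.2 hs) 2) (pow_pos (abs_pos.2 ht) 2) (r := p / 2)
    (by linarith)
  simp only [sq_abs] at h2
  have e : ((s + t) ^ 2 + (s - t) ^ 2) / 2 = s ^ 2 + t ^ 2 := by ring
  rw [e] at h1
  linarith

/-- Equality in Clarkson's inequality (`p ≠ 2`) forces disjoint supports. -/
theorem clarkson_sum_eq {ι : Type*} [Fintype ι] {p : ℝ} (hp0 : 0 < p) (hp2 : p ≠ 2)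
    (U V : ι → ℝ)
    (h : ∑ i, |U i + V i| ^ p + ∑ i, |U i - V i| ^ p
      = 2 * (∑ i, |U i| ^ p + ∑ i, |V i| ^ p)) :
    ∀ i, U i * V i = 0 := by
  rcases lt_or_gt_of_ne hp2 with hp | hp
  · -- p < 2
    have hz : ∑ i, (2 * (|U i| ^ p + |V i| ^ p) - (|U i + V i| ^ p + |U i - V i| ^ p)) = 0 := by
      rw [Finset.sum_sub_distrib, ← Finset.mul_sum, Finset.sum_add_distrib,
        Finset.sum_add_distrib]
      linarith
    have hnn : ∀ i ∈ (Finset.univ : Finset ι),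
        0 ≤ 2 * (|U i| ^ p + |V i| ^ p) - (|U i + V i| ^ p + |U i - V i| ^ p) := fun i _ =>
      sub_nonneg.2 (clarkson_le hp0 hp _ _)
    intro i
    have hi := (Finset.sum_eq_zero_iff_of_nonneg hnn).1 hz i (Finset.mem_univ i)
    by_contra hne
    have hs : U i ≠ 0 := fun h0 => hne (by rw [h0, zero_mul])
    have ht : V i ≠ 0 := fun h0 => hne (by rw [h0, mul_zero])
    have := clarkson_lt hp0 hp hs ht
    linarith
  · have hz : ∑ i, ((|U i + V i| ^ p + |U i - V i| ^ p) - 2 * (|U i| ^ p + |V i| ^ p)) = 0 := by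
      rw [Finset.sum_sub_distrib, ← Finset.mul_sum, Finset.sum_add_distrib,
        Finset.sum_add_distrib]
      linarith
    have hnn : ∀ i ∈ (Finset.univ : Finset ι),
        0 ≤ (|U i + V i| ^ p + |U i - V i| ^ p) - 2 * (|U i| ^ p + |V i| ^ p) := fun i _ =>
      sub_nonneg.2 (clarkson_ge hp _ _)
    intro i
    have hi := (Finset.sum_eq_zero_iff_of_nonneg hnn).1 hz i (Finset.mem_univ i)
    by_contra hne
    have hs : U i ≠ 0 := fun h0 => hne (by rw [h0, zero_mul])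
    have ht : V i ≠ 0 := fun h0 => hne (by rw [h0, mul_zero])
    have := clarkson_gt hp hs ht
    linarith

/-- convexity of `|t|^p`. -/
lemma abs_half_rpow_le {p : ℝ} (hp : 1 < p) (a b : ℝ) :
    2 * |(a + b) / 2| ^ p ≤ |a| ^ p + |b| ^ p := by
  have h1 : |(a + b) / 2| ≤ (|a| + |b|) / 2 := by
    rw [abs_div, abs_two]
    exact div_le_div_of_nonneg_right (abs_add_le a b) (by norm_num)
  have h2 : |(a + b) / 2| ^ p ≤ ((|a| + |b|) / 2) ^ p :=
    Real.rpow_le_rpow (abs_nonneg _) h1 (by linarith)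
  have h3 := half_rpow_le (abs_nonneg a) (abs_nonneg b) hp.le
  linarith

lemma abs_half_rpow_lt {p : ℝ} (hp : 1 < p) {a b : ℝ} (hab : a ≠ b) :
    2 * |(a + b) / 2| ^ p < |a| ^ p + |b| ^ p := by
  have hp0 : p ≠ 0 := by linarith
  by_cases habs : |a| = |b|
  · -- then a = -b
    have hneg : a = -b := by
      rcases abs_eq_abs.1 habs with h | h
      · exact absurd h hab
      · exact h
    have hb : b ≠ 0 := by
      intro h0
      apply hab
      rw [hneg, h0]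
      simp
    have : (a + b) / 2 = 0 := by rw [hneg]; ring
    rw [this, abs_zero, Real.zero_rpow hp0, mul_zero]
    have h1 : 0 < |b| ^ p := Real.rpow_pos_of_pos (abs_pos.2 hb) p
    have h2 : 0 ≤ |a| ^ p := Real.rpow_nonneg (abs_nonneg a) p
    linarith
  · have h1 : |(a + b) / 2| ≤ (|a| + |b|) / 2 := by
      rw [abs_div, abs_two]
      exact div_le_div_of_nonneg_right (abs_add_le a b) (by norm_num)
    have h2 : |(a + b) / 2| ^ p ≤ ((|a| + |b|) / 2) ^ p :=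
      Real.rpow_le_rpow (abs_nonneg _) h1 (by linarith)
    have h := (strictConvexOn_rpow hp).2 (Set.mem_Ici.2 (abs_nonneg a))
      (Set.mem_Ici.2 (abs_nonneg b)) habs
      (by norm_num : (0 : ℝ) < 1 / 2) (by norm_num : (0 : ℝ) < 1 / 2) (by norm_num)
    simp only [smul_eq_mul] at h
    have e : 1 / 2 * |a| + 1 / 2 * |b| = (|a| + |b|) / 2 := by ring
    rw [e] at h
    linarith

/-- Uniqueness of midpoints in `ℓ^p`, `p > 1`, in coordinates. -/
theorem midpoint_sum {ι : Type*} [Fintype ι] {p : ℝ} (hp : 1 < p) (A B : ι → ℝ) (r : ℝ)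
    (hA : ∑ i, |A i| ^ p = r) (hB : ∑ i, |B i| ^ p = r)
    (hAB : ∑ i, |(A i + B i) / 2| ^ p = r) : A = B := by
  have hz : ∑ i, (|A i| ^ p + |B i| ^ p - 2 * |(A i + B i) / 2| ^ p) = 0 := by
    rw [Finset.sum_sub_distrib, ← Finset.mul_sum, Finset.sum_add_distrib]
    linarith
  have hnn : ∀ i ∈ (Finset.univ : Finset ι),
      0 ≤ |A i| ^ p + |B i| ^ p - 2 * |(A i + B i) / 2| ^ p := fun i _ =>
    sub_nonneg.2 (abs_half_rpow_le hp _ _)
  funext i
  have hi := (Finset.sum_eq_zero_iff_of_nonneg hnn).1 hz i (Finset.mem_univ i)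
  by_contra hne
  have := abs_half_rpow_lt hp hne
  linarith

end Crest.Agent.S0359Aux.H96
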