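import Mathlib

/-!
S0359 (helper87): `L^p` of the counting measure on a finite type, and the `ℓ^p` norm on `PiLp`.
-/

open MeasureTheory
open scoped ENNReal

namespace Crest.Agent.S0359Aux.LpCount87

variable {A : Type} [Fintype A] [MeasurableSpace A] [MeasurableSingletonClass A]
variable (p : ℝ≥0∞) [Fact (1 ≤ p)]

omit [Fact (1 ≤ p)] in
theorem memLp_count (f : A → ℝ) : MemLp f p (Measure.count : Measure A) := by
  have : IsFiniteMeasure (Measure.count : Measure A) := by
    constructor
    rw [Measure.count_apply_finite _ Set.finite_univ]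
    exact ENNReal.natCast_lt_top _ 
  exact MemLp.of_bound (measurable_of_finite f).aestronglyMeasurable
    (∑ a, ‖f a‖) (Filter.Eventually.of_forall fun a =>
      Finset.single_le_sum (f := fun a => ‖f a‖) (fun i _ => norm_nonneg _) (Finset.mem_univ a))

/-- the class of `f` in `L^p(count)` -/
noncomputable def emb (f : A → ℝ) : Lp ℝ p (Measure.count : Measure A) :=
  (memLp_count p f).toLp f

omit [Fact (1 ≤ p)] in
theorem emb_sub (f g : A → ℝ) : emb p f - emb p g = emb p (f - g) := by
  unfold emb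
  rw [← MemLp.toLp_sub]

theorem norm_emb_rpow (hptop : p ≠ ⊤) (f : A → ℝ) :
    ‖emb p f‖ ^ p.toReal = ∑ a, |f a| ^ p.toReal := by
  have hp0 : p ≠ 0 := by
    have : (1 : ℝ≥0∞) ≤ p := Fact.out
    intro h; rw [h] at this; simp at this
  have hr : 0 < p.toReal := ENNReal.toReal_pos hp0 hptop
  unfold emb
  rw [Lp.norm_toLp, eLpNorm_eq_lintegral_rpow_enorm_toReal hp0 hptop, lintegral_count, tsum_fintype]
  rw [← ENNReal.toReal_rpow, ← Real.rpow_mul ENNReal.toReal_nonneg, one_div,
    inv_mul_cancel₀ hr.ne', Real.rpow_one]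
  rw [ENNReal.toReal_sum]
  · refine Finset.sum_congr rfl fun a _ => ?_
    rw [← ENNReal.toReal_rpow]
    simp
  · intro a _
    exact ENNReal.rpow_ne_top_of_nonneg hr.le (by simp)

theorem norm_emb_sub_rpow (hptop : p ≠ ⊤) (f g : A → ℝ) :
    ‖emb p f - emb p g‖ ^ p.toReal = ∑ a, |f a - g a| ^ p.toReal := by
  rw [emb_sub, norm_emb_rpow p hptop]
  rfl

theorem emb_injective (hptop : p ≠ ⊤) : Function.Injective (emb p : (A → ℝ) → _) := by
  intro f g h
  have hp0 : p ≠ 0 := by
    have : (1 : ℝ≥0∞) ≤ p := Fact.out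
    intro h; rw [h] at this; simp at this
  have hr : 0 < p.toReal := ENNReal.toReal_pos hp0 hptop
  have h0 : ∑ a, |f a - g a| ^ p.toReal = 0 := by
    rw [← norm_emb_sub_rpow p hptop, h, sub_self, norm_zero, Real.zero_rpow hr.ne']
  rw [Finset.sum_eq_zero_iff_of_nonneg (fun a _ => by positivity)] at h0
  funext a
  have := h0 a (Finset.mem_univ a)
  rw [Real.rpow_eq_zero (abs_nonneg _) hr.ne', abs_eq_zero] at this
  linarith

theorem norm_rpow_piLp (hptop : p ≠ ⊤) {d : ℕ} (y : PiLp p (fun _ : Fin d => ℝ)) :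
    ‖y‖ ^ p.toReal = ∑ i, |y i| ^ p.toReal := by
  have hp0 : p ≠ 0 := by
    have : (1 : ℝ≥0∞) ≤ p := Fact.out
    intro h; rw [h] at this; simp at this
  have hr : 0 < p.toReal := ENNReal.toReal_pos hp0 hptop
  rw [PiLp.norm_eq_sum hr, ← Real.rpow_mul (by positivity), one_div, inv_mul_cancel₀ hr.ne',
    Real.rpow_one]
  rfl

theorem norm_sub_rpow_piLp (hptop : p ≠ ⊤) {d : ℕ} (y z : PiLp p (fun _ : Fin d => ℝ)) :
    ‖y - z‖ ^ p.toReal = ∑ i, |y i - z i| ^ p.toReal := by
  rw [norm_rpow_piLp p hptop]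
  rfl

theorem infinite_Lp (hptop : p ≠ ⊤) [Nonempty A] :
    Infinite (Lp ℝ p (Measure.count : Measure A)) := by
  refine Infinite.of_injective (fun c : ℝ => emb p (fun _ : A => c)) ?_
  intro c c' h
  have := emb_injective p hptop h
  exact congrFun this (Classical.arbitrary A)

/-- filler points: an injective family indexed by a small finite type extends to an injective
family indexed by `Fin n` in any infinite type. -/
theorem exists_extension {X : Type*} [Infinite X] {T : Type*} [Fintype T] (h : T → X)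
    (hinj : Function.Injective h) (n : ℕ) (hn : Fintype.card T ≤ n) :
    ∃ (x : Fin n → X) (e : T → Fin n), Function.Injective x ∧ ∀ t, x (e t) = h t := by
  classical
  have hc : (Finset.univ.image h).card ≤ n := by
    rw [Finset.card_image_of_injective _ hinj]; simpa using hn
  obtain ⟨s', hsub, hcard⟩ := Infinite.exists_superset_card_eq (Finset.univ.image h) n hc
  let E : s' ≃ Fin n := s'.equivFinOfCardEq hcard
  refine ⟨fun i => ((E.symm i : s') : X),
    fun t => E ⟨h t, hsub (Finset.mem_image_of_mem h (Finset.mem_univ t))⟩, ?_, ?_⟩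
  · intro i j hij
    exact E.symm.injective (Subtype.ext hij)
  · intro t
    simp

end Crest.Agent.S0359Aux.LpCount87
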