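import Mathlib

/-!
Scalar inequalities with equality cases used for S0359 (helper61):
midpoint (strict convexity of `|x|^p`, `p > 1`) and the two Clarkson-type inequalities
(`p > 2`, `p < 2`) with their equality cases.
-/

set_option autoImplicit false

namespace Crest.Agent.S0359Aux.Scalar61

theorem abs_rpow_eq_sq_rpow (p s : ℝ) : |s| ^ p = (s ^ 2) ^ (p / 2) := by
  rw [← sq_abs, ← Real.rpow_natCast, ← Real.rpow_mul (abs_nonneg s)]
  congr 1
  push_cast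
  ring

/-- strict superadditivity of `x ^ q`, `q > 1`. -/
theorem add_rpow_lt {q a b : ℝ} (hq : 1 < q) (ha : 0 < a) (hb : 0 < b) :
    a ^ q + b ^ q < (a + b) ^ q := by
  have hab : 0 < a + b := by positivity
  have h1 : a ^ (q - 1) < (a + b) ^ (q - 1) :=
    Real.rpow_lt_rpow ha.le (by linarith) (by linarith)
  have h2 : b ^ (q - 1) < (a + b) ^ (q - 1) :=
    Real.rpow_lt_rpow hb.le (by linarith) (by linarith)
  have e1 : a ^ q = a * a ^ (q - 1) := by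
    rw [Real.rpow_sub_one ha.ne']; field_simp
  have e2 : b ^ q = b * b ^ (q - 1) := by
    rw [Real.rpow_sub_one hb.ne']; field_simp
  have e3 : (a + b) ^ q = (a + b) * (a + b) ^ (q - 1) := by
    rw [Real.rpow_sub_one hab.ne']; field_simp
  rw [e1, e2, e3]
  nlinarith [mul_lt_mul_of_pos_left h1 ha, mul_lt_mul_of_pos_left h2 hb]

/-- strict subadditivity of `x ^ q`, `q < 1`. -/
theorem rpow_add_lt {q a b : ℝ} (hq : q < 1) (ha : 0 < a) (hb : 0 < b) :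
    (a + b) ^ q < a ^ q + b ^ q := by
  have hab : 0 < a + b := by positivity
  have h1 : (a + b) ^ (q - 1) < a ^ (q - 1) :=
    Real.rpow_lt_rpow_of_neg ha (by linarith) (by linarith)
  have h2 : (a + b) ^ (q - 1) < b ^ (q - 1) :=
    Real.rpow_lt_rpow_of_neg hb (by linarith) (by linarith)
  have e1 : a ^ q = a * a ^ (q - 1) := by
    rw [Real.rpow_sub_one ha.ne']; field_simp
  have e2 : b ^ q = b * b ^ (q - 1) := by
    rw [Real.rpow_sub_one hb.ne']; field_simp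
  have e3 : (a + b) ^ q = (a + b) * (a + b) ^ (q - 1) := by
    rw [Real.rpow_sub_one hab.ne']; field_simp
  rw [e1, e2, e3]
  nlinarith [mul_lt_mul_of_pos_left h1 ha, mul_lt_mul_of_pos_left h2 hb]

theorem add_rpow_le' {q a b : ℝ} (hq : 1 < q) (ha : 0 ≤ a) (hb : 0 ≤ b) :
    a ^ q + b ^ q ≤ (a + b) ^ q := by
  have hq0 : q ≠ 0 := by linarith
  rcases ha.eq_or_lt with rfl | ha
  · simp [Real.zero_rpow hq0]
  rcases hb.eq_or_lt with rfl | hb
  · simp [Real.zero_rpow hq0]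
  exact (add_rpow_lt hq ha hb).le

theorem rpow_add_le' {q a b : ℝ} (hq0 : 0 < q) (hq : q < 1) (ha : 0 ≤ a) (hb : 0 ≤ b) :
    (a + b) ^ q ≤ a ^ q + b ^ q := by
  rcases ha.eq_or_lt with rfl | ha
  · simp [Real.zero_rpow hq0.ne']
  rcases hb.eq_or_lt with rfl | hb
  · simp [Real.zero_rpow hq0.ne']
  exact (rpow_add_lt hq ha hb).le

/-- midpoint convexity of `x ^ q`. -/
theorem two_mul_rpow_le {q x y : ℝ} (hq : 1 ≤ q) (hx : 0 ≤ x) (hy : 0 ≤ y) :
    2 * ((x + y) / 2) ^ q ≤ x ^ q + y ^ q := by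
  have h := (convexOn_rpow hq).2 (Set.mem_Ici.2 hx) (Set.mem_Ici.2 hy)
    (by norm_num : (0 : ℝ) ≤ 1 / 2) (by norm_num : (0 : ℝ) ≤ 1 / 2) (by norm_num)
  simp only [smul_eq_mul] at h
  have e : 1 / 2 * x + 1 / 2 * y = (x + y) / 2 := by ring
  rw [e] at h
  linarith

/-- midpoint concavity of `x ^ q`. -/
theorem rpow_le_two_mul {q x y : ℝ} (hq0 : 0 ≤ q) (hq : q ≤ 1) (hx : 0 ≤ x) (hy : 0 ≤ y) :
    x ^ q + y ^ q ≤ 2 * ((x + y) / 2) ^ q := by
  have h := (Real.concaveOn_rpow hq0 hq).2 (Set.mem_Ici.2 hx) (Set.mem_Ici.2 hy)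
    (by norm_num : (0 : ℝ) ≤ 1 / 2) (by norm_num : (0 : ℝ) ≤ 1 / 2) (by norm_num)
  simp only [smul_eq_mul] at h
  have e : 1 / 2 * x + 1 / 2 * y = (x + y) / 2 := by ring
  rw [e] at h
  linarith

theorem clarkson_gt {p : ℝ} (hp : 2 < p) (s t : ℝ) :
    2 * (|s| ^ p + |t| ^ p) ≤ |s + t| ^ p + |s - t| ^ p := by
  rw [abs_rpow_eq_sq_rpow p s, abs_rpow_eq_sq_rpow p t, abs_rpow_eq_sq_rpow p (s + t),
    abs_rpow_eq_sq_rpow p (s - t)]
  have hq : 1 < p / 2 := by linarith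
  have h1 := two_mul_rpow_le hq.le (sq_nonneg (s + t)) (sq_nonneg (s - t))
  have e : ((s + t) ^ 2 + (s - t) ^ 2) / 2 = s ^ 2 + t ^ 2 := by ring
  rw [e] at h1
  have h2 := add_rpow_le' hq (sq_nonneg s) (sq_nonneg t)
  linarith

theorem clarkson_gt_eq {p : ℝ} (hp : 2 < p) (s t : ℝ)
    (h : |s + t| ^ p + |s - t| ^ p = 2 * (|s| ^ p + |t| ^ p)) : s = 0 ∨ t = 0 := by
  by_contra hcon
  push Not at hcon
  obtain ⟨hs, ht⟩ := hcon
  rw [abs_rpow_eq_sq_rpow p s, abs_rpow_eq_sq_rpow p t, abs_rpow_eq_sq_rpow p (s + t),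
    abs_rpow_eq_sq_rpow p (s - t)] at h
  have hq : 1 < p / 2 := by linarith
  have h1 := two_mul_rpow_le hq.le (sq_nonneg (s + t)) (sq_nonneg (s - t))
  have e : ((s + t) ^ 2 + (s - t) ^ 2) / 2 = s ^ 2 + t ^ 2 := by ring
  rw [e] at h1
  have h2 := add_rpow_lt hq (by positivity : 0 < s ^ 2) (by positivity : 0 < t ^ 2)
  linarith

theorem clarkson_lt {p : ℝ} (hp0 : 0 < p) (hp : p < 2) (s t : ℝ) :
    |s + t| ^ p + |s - t| ^ p ≤ 2 * (|s| ^ p + |t| ^ p) := by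
  rw [abs_rpow_eq_sq_rpow p s, abs_rpow_eq_sq_rpow p t, abs_rpow_eq_sq_rpow p (s + t),
    abs_rpow_eq_sq_rpow p (s - t)]
  have hq : p / 2 < 1 := by linarith
  have hq0 : 0 < p / 2 := by linarith
  have h1 := rpow_le_two_mul hq0.le hq.le (sq_nonneg (s + t)) (sq_nonneg (s - t))
  have e : ((s + t) ^ 2 + (s - t) ^ 2) / 2 = s ^ 2 + t ^ 2 := by ring
  rw [e] at h1
  have h2 := rpow_add_le' hq0 hq (sq_nonneg s) (sq_nonneg t)
  linarith

theorem clarkson_lt_eq {p : ℝ} (hp0 : 0 < p) (hp : p < 2) (s t : ℝ)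
    (h : |s + t| ^ p + |s - t| ^ p = 2 * (|s| ^ p + |t| ^ p)) : s = 0 ∨ t = 0 := by
  by_contra hcon
  push Not at hcon
  obtain ⟨hs, ht⟩ := hcon
  rw [abs_rpow_eq_sq_rpow p s, abs_rpow_eq_sq_rpow p t, abs_rpow_eq_sq_rpow p (s + t),
    abs_rpow_eq_sq_rpow p (s - t)] at h
  have hq : p / 2 < 1 := by linarith
  have hq0 : 0 < p / 2 := by linarith
  have h1 := rpow_le_two_mul hq0.le hq.le (sq_nonneg (s + t)) (sq_nonneg (s - t))
  have e : ((s + t) ^ 2 + (s - t) ^ 2) / 2 = s ^ 2 + t ^ 2 := by ring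
  rw [e] at h1
  have h2 := rpow_add_lt hq (by positivity : 0 < s ^ 2) (by positivity : 0 < t ^ 2)
  linarith

/-- `(x+y)^p ≤ 2^(p-1) (x^p+y^p)`. -/
theorem add_rpow_le_two {p x y : ℝ} (hp : 1 < p) (hx : 0 ≤ x) (hy : 0 ≤ y) :
    (x + y) ^ p ≤ 2 ^ (p - 1) * (x ^ p + y ^ p) := by
  have h := two_mul_rpow_le hp.le hx hy
  rw [Real.div_rpow (by positivity) (by norm_num)] at h
  have h2 : (2 : ℝ) ^ p = 2 * 2 ^ (p - 1) := by
    rw [Real.rpow_sub_one (by norm_num)]; field_simp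
  have h3 : (0 : ℝ) < 2 ^ (p - 1) := by positivity
  rw [h2] at h
  have h4 : 2 * ((x + y) ^ p / (2 * 2 ^ (p - 1))) = (x + y) ^ p / 2 ^ (p - 1) := by
    field_simp
  rw [h4, div_le_iff₀ h3] at h
  linarith

theorem add_rpow_lt_two {p x y : ℝ} (hp : 1 < p) (hx : 0 ≤ x) (hy : 0 ≤ y) (hxy : x ≠ y) :
    (x + y) ^ p < 2 ^ (p - 1) * (x ^ p + y ^ p) := by
  have h := (strictConvexOn_rpow hp).2 (Set.mem_Ici.2 hx) (Set.mem_Ici.2 hy) hxy
    (by norm_num : (0 : ℝ) < 1 / 2) (by norm_num : (0 : ℝ) < 1 / 2) (by norm_num)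
  simp only [smul_eq_mul] at h
  have e : 1 / 2 * x + 1 / 2 * y = (x + y) / 2 := by ring
  rw [e, Real.div_rpow (by positivity) (by norm_num)] at h
  have h2 : (2 : ℝ) ^ p = 2 * 2 ^ (p - 1) := by
    rw [Real.rpow_sub_one (by norm_num)]; field_simp
  have h3 : (0 : ℝ) < 2 ^ (p - 1) := by positivity
  rw [h2, div_lt_iff₀ (by positivity)] at h
  nlinarith

theorem midpoint_le {p : ℝ} (hp : 1 < p) (a b : ℝ) :
    |a - b| ^ p ≤ 2 ^ (p - 1) * (|a| ^ p + |b| ^ p) := by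
  have h1 : |a - b| ^ p ≤ (|a| + |b|) ^ p :=
    Real.rpow_le_rpow (abs_nonneg _) (abs_sub a b) (by linarith)
  exact h1.trans (add_rpow_le_two hp (abs_nonneg a) (abs_nonneg b))

theorem midpoint_eq {p : ℝ} (hp : 1 < p) (a b : ℝ)
    (h : |a - b| ^ p = 2 ^ (p - 1) * (|a| ^ p + |b| ^ p)) : b = -a := by
  have h1 : |a - b| ^ p ≤ (|a| + |b|) ^ p :=
    Real.rpow_le_rpow (abs_nonneg _) (abs_sub a b) (by linarith)
  have hab : |a| = |b| := by
    by_contra hne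
    have := add_rpow_lt_two hp (abs_nonneg a) (abs_nonneg b) hne
    linarith
  have h2 : (|a| + |b|) ^ p ≤ |a - b| ^ p := by
    rw [h]; exact add_rpow_le_two hp (abs_nonneg a) (abs_nonneg b)
  have h3 : |a| + |b| ≤ |a - b| :=
    (Real.rpow_le_rpow_iff (by positivity) (abs_nonneg _) (by linarith)).1 h2
  rcases abs_eq_abs.1 hab with hh | hh
  · have h0 : a - b = 0 := by linarith
    rw [h0, abs_zero] at h3
    have hb0 : |b| = 0 := by linarith [abs_nonneg a, abs_nonneg b]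
    have ha0 : |a| = 0 := by linarith [abs_nonneg a, abs_nonneg b]
    rw [abs_eq_zero.1 hb0, abs_eq_zero.1 ha0]; simp
  · rw [hh]; simp

end Crest.Agent.S0359Aux.Scalar61
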