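import Mathlib
import Crest.Agent.S0359Aux.Scalar61

/-!
Finite-sum core of S0359 (helper61): if the `4k+1` points `0, ±u_a, ±v_b` (rows / columns)
are mapped to `Fin d → ℝ` so that all `r`-th power sums of differences are multiplied by a
common factor `c > 0`, then `k ^ 2 ≤ d`.
-/

set_option autoImplicit false

namespace Crest.Agent.S0359Aux.Vec61

open Crest.Agent.S0359Aux.Scalar61

/-- `r`-th power sum. -/
noncomputable def N {ι : Type*} [Fintype ι] (r : ℝ) (f : ι → ℝ) : ℝ := ∑ i, |f i| ^ r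

theorem N_neg {ι : Type*} [Fintype ι] (r : ℝ) (f : ι → ℝ) : N r (-f) = N r f := by
  simp [N]

theorem N_two {ι : Type*} [Fintype ι] (r : ℝ) (f : ι → ℝ) :
    N r (f - (-f)) = 2 ^ r * N r f := by
  simp only [N, Finset.mul_sum]
  refine Finset.sum_congr rfl fun i _ => ?_
  have : (f - -f) i = 2 * f i := by simp; ring
  rw [this, abs_mul, Real.mul_rpow (abs_nonneg _) (abs_nonneg _)]
  simp

/-- vector midpoint lemma. -/
theorem vec_midpoint {ι : Type*} [Fintype ι] {r : ℝ} (hr : 1 < r) (A B : ι → ℝ)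
    (h : N r (A - B) = 2 ^ (r - 1) * (N r A + N r B)) : B = -A := by
  have hle : ∀ i ∈ (Finset.univ : Finset ι),
      |(A - B) i| ^ r ≤ 2 ^ (r - 1) * (|A i| ^ r + |B i| ^ r) := fun i _ => midpoint_le hr _ _
  have hsum : ∑ i, |(A - B) i| ^ r = ∑ i, 2 ^ (r - 1) * (|A i| ^ r + |B i| ^ r) := by
    rw [← Finset.mul_sum, Finset.sum_add_distrib]; exact h
  have := (Finset.sum_eq_sum_iff_of_le hle).1 hsum
  funext i
  exact midpoint_eq hr _ _ (this i (Finset.mem_univ i))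

/-- vector Clarkson equality case. -/
theorem vec_clarkson {ι : Type*} [Fintype ι] {r : ℝ} (hr1 : 1 < r) (hr2 : r ≠ 2) (A B : ι → ℝ)
    (h : N r (A + B) + N r (A - B) = 2 * (N r A + N r B)) : ∀ i, A i = 0 ∨ B i = 0 := by
  have hsum : ∑ i, (|(A + B) i| ^ r + |(A - B) i| ^ r) = ∑ i, 2 * (|A i| ^ r + |B i| ^ r) := by
    rw [← Finset.mul_sum, Finset.sum_add_distrib, Finset.sum_add_distrib]; exact h
  rcases lt_or_gt_of_ne hr2 with hlt | hgt
  · have hle : ∀ i ∈ (Finset.univ : Finset ι),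
        |(A + B) i| ^ r + |(A - B) i| ^ r ≤ 2 * (|A i| ^ r + |B i| ^ r) :=
      fun i _ => clarkson_lt (by linarith) hlt _ _
    have := (Finset.sum_eq_sum_iff_of_le hle).1 hsum
    intro i
    exact clarkson_lt_eq (by linarith) hlt _ _ (this i (Finset.mem_univ i))
  · have hle : ∀ i ∈ (Finset.univ : Finset ι),
        2 * (|A i| ^ r + |B i| ^ r) ≤ |(A + B) i| ^ r + |(A - B) i| ^ r :=
      fun i _ => clarkson_gt hgt _ _
    have := (Finset.sum_eq_sum_iff_of_le hle).1 hsum.symm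
    intro i
    exact clarkson_gt_eq hgt _ _ (this i (Finset.mem_univ i)).symm

/-- source side: disjointly supported functions satisfy the Clarkson equality. -/
theorem src_clarkson {ι : Type*} [Fintype ι] {r : ℝ} (hr : 0 < r) (A B : ι → ℝ)
    (h : ∀ i, A i = 0 ∨ B i = 0) : N r (A + B) + N r (A - B) = 2 * (N r A + N r B) := by
  simp only [N]
  rw [← Finset.sum_add_distrib, ← Finset.sum_add_distrib, Finset.mul_sum]
  refine Finset.sum_congr rfl fun i _ => ?_
  rcases h i with h0 | h0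
  · simp [h0, Real.zero_rpow hr.ne']; ring
  · simp [h0, Real.zero_rpow hr.ne']; ring

/-- one family: images of `-u_a` are the negatives, and images are disjointly supported. -/
theorem family {I α : Type*} [Fintype α] {d k : ℕ} {r c : ℝ} (hr1 : 1 < r) (hr2 : r ≠ 2)
    (F : I → α → ℝ) (Y : I → Fin d → ℝ)
    (hY : ∀ i j, N r (Y i - Y j) = c * N r (F i - F j))
    (i0 : I) (ip im : Fin k → I) (u : Fin k → α → ℝ)
    (hF0 : F i0 = 0) (hFp : ∀ a, F (ip a) = u a) (hFm : ∀ a, F (im a) = -u a)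
    (hu : ∀ a a', a ≠ a' → ∀ x, u a x = 0 ∨ u a' x = 0) :
    (∀ a, Y (im a) - Y i0 = -(Y (ip a) - Y i0)) ∧
      ∀ a a', a ≠ a' → ∀ i, (Y (ip a) - Y i0) i = 0 ∨ (Y (ip a') - Y i0) i = 0 := by
  have e1 : ∀ a, N r (Y (ip a) - Y i0) = c * N r (u a) := by
    intro a; rw [hY, hFp, hF0, sub_zero]
  have e2 : ∀ a, N r (Y (im a) - Y i0) = c * N r (u a) := by
    intro a; rw [hY, hFm, hF0, sub_zero, N_neg]
  have hneg : ∀ a, Y (im a) - Y i0 = -(Y (ip a) - Y i0) := by
    intro a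
    apply vec_midpoint hr1
    have : Y (ip a) - Y i0 - (Y (im a) - Y i0) = Y (ip a) - Y (im a) := by abel
    rw [this, hY, hFp, hFm, N_two, e1, e2]
    have h2 : (2 : ℝ) ^ r = 2 * 2 ^ (r - 1) := by
      rw [Real.rpow_sub_one (by norm_num)]; field_simp
    rw [h2]; ring
  refine ⟨hneg, fun a a' haa' => ?_⟩
  apply vec_clarkson hr1 hr2
  have t1 : Y (ip a) - Y i0 + (Y (ip a') - Y i0) = Y (ip a) - Y (im a') := by
    have := hneg a'
    have h3 : Y (ip a') - Y i0 = -(Y (im a') - Y i0) := by rw [this]; simp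
    rw [h3]; abel
  have t2 : Y (ip a) - Y i0 - (Y (ip a') - Y i0) = Y (ip a) - Y (ip a') := by abel
  rw [t1, t2, hY, hY, hFp, hFp, hFm, e1, e1, sub_neg_eq_add, ← mul_add,
    src_clarkson (by linarith) _ _ (hu a a' haa')]
  ring

theorem core {I α : Type*} [Fintype α] {d k : ℕ} {r c : ℝ} (hr1 : 1 < r) (hr2 : r ≠ 2)
    (F : I → α → ℝ) (Y : I → Fin d → ℝ)
    (hY : ∀ i j, N r (Y i - Y j) = c * N r (F i - F j))
    (i0 : I) (ip im jp jm : Fin k → I) (u v : Fin k → α → ℝ)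
    (hF0 : F i0 = 0) (hFp : ∀ a, F (ip a) = u a) (hFm : ∀ a, F (im a) = -u a)
    (hGp : ∀ b, F (jp b) = v b) (hGm : ∀ b, F (jm b) = -v b)
    (hu : ∀ a a', a ≠ a' → ∀ x, u a x = 0 ∨ u a' x = 0)
    (hv : ∀ b b', b ≠ b' → ∀ x, v b x = 0 ∨ v b' x = 0)
    (huv : ∀ a b, c * N r (u a + v b) ≠ c * N r (u a - v b)) :
    k ^ 2 ≤ d := by
  obtain ⟨-, hU⟩ := family hr1 hr2 F Y hY i0 ip im u hF0 hFp hFm hu
  obtain ⟨hVn, hV⟩ := family hr1 hr2 F Y hY i0 jp jm v hF0 hGp hGm hv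
  have hex : ∀ ab : Fin k × Fin k, ∃ i : Fin d,
      (Y (ip ab.1) - Y i0) i ≠ 0 ∧ (Y (jp ab.2) - Y i0) i ≠ 0 := by
    rintro ⟨a, b⟩
    by_contra hcon
    push Not at hcon
    apply huv a b
    have t1 : c * N r (u a + v b) = N r ((Y (ip a) - Y i0) + (Y (jp b) - Y i0)) := by
      have h3 : Y (jp b) - Y i0 = -(Y (jm b) - Y i0) := by rw [hVn b]; simp
      have : Y (ip a) - Y i0 + (Y (jp b) - Y i0) = Y (ip a) - Y (jm b) := by rw [h3]; abel
      rw [this, hY, hFp, hGm, sub_neg_eq_add]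
    have t2 : c * N r (u a - v b) = N r ((Y (ip a) - Y i0) - (Y (jp b) - Y i0)) := by
      have : Y (ip a) - Y i0 - (Y (jp b) - Y i0) = Y (ip a) - Y (jp b) := by abel
      rw [this, hY, hFp, hGp]
    rw [t1, t2]
    simp only [N]
    refine Finset.sum_congr rfl fun i _ => ?_
    by_cases h0 : (Y (ip a) - Y i0) i = 0
    · simp only [Pi.add_apply, Pi.sub_apply] at h0 ⊢
      rw [h0]; simp [abs_sub_comm]
    · have h1 := hcon i h0
      simp only [Pi.add_apply, Pi.sub_apply] at h1 ⊢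
      rw [h1]; simp
  choose φ hφ using hex
  have hinj : Function.Injective φ := by
    rintro ⟨a, b⟩ ⟨a', b'⟩ h
    have ha : a = a' := by
      by_contra hne
      rcases hU a a' hne (φ (a, b)) with h0 | h0
      · exact (hφ (a, b)).1 h0
      · rw [h] at h0; exact (hφ (a', b')).1 h0
    have hb : b = b' := by
      by_contra hne
      rcases hV b b' hne (φ (a, b)) with h0 | h0
      · exact (hφ (a, b)).2 h0
      · rw [h] at h0; exact (hφ (a', b')).2 h0
    rw [ha, hb]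
  have := Fintype.card_le_of_injective φ hinj
  simpa [sq] using this

end Crest.Agent.S0359Aux.Vec61
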